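import Mathlib
import Vale.Agent.Lib.P237.helper98.Defs

/-!
# P237 (helper1): truncated cones (frusta) over planar convex sets - definitions

`frustum D lam c h` is the union of the segments from `(d, 0)` to `(lam * d + c, h)`, `d ∈ D`.
For convex `D` and `0 ≤ lam` this is the convex hull of the bottom face `D × {0}` and the top face
`(lam D + c) × {h}`: a right prism for `lam = 1`, `c = 0`, an oblique prism for `lam = 1`, a cone
with apex `(c, h)` for `lam = 0`, a truncated cone in general.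
-/

namespace Vale.Agent.Lib.P237

/-- The truncated cone with bottom face `D × {0}` and top face `(lam • D + c) × {h}`: the union
of the segments from `(d, 0)` to `(lam • d + c, h)` over `d ∈ D`. -/
def frustum (D : Set (ℝ × ℝ)) (lam : ℝ) (c : ℝ × ℝ) (h : ℝ) : Set E3 :=
  {x | ∃ d ∈ D, ∃ r : ℝ, 0 ≤ r ∧ r ≤ 1 ∧
    x 0 = (1 - r) * d.1 + r * (lam * d.1 + c.1) ∧
    x 1 = (1 - r) * d.2 + r * (lam * d.2 + c.2) ∧ x 2 = r * h}

/-- The planar shadow of a frustum: the union of the segments from `e` to `lam • e + t`,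
`e ∈ E`. -/
def frSet (E : Set (ℝ × ℝ)) (lam : ℝ) (t : ℝ × ℝ) : Set (ℝ × ℝ) :=
  {y | ∃ e ∈ E, ∃ r : ℝ, 0 ≤ r ∧ r ≤ 1 ∧ y = (1 - r) • e + r • (lam • e + t)}

/-- `chordFn e₁ e₂ x = det (e₂ - e₁, x - e₁)`: the signed position of `x` relative to the line
through `e₁` and `e₂`. -/
def chordFn (e₁ e₂ x : ℝ × ℝ) : ℝ :=
  (e₂.1 - e₁.1) * (x.2 - e₁.2) - (e₂.2 - e₁.2) * (x.1 - e₁.1)

end Vale.Agent.Lib.P237
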