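import Mathlib
import Vale.Agent.Lib.P237.helper1.FrDefs
import Vale.Agent.Lib.P237.helper77.Trap
import Vale.Agent.Lib.P237.helper98.Prism

/-!
# P237 (helper1): projections of a frustum

The image of `frustum D lam c h` under `x ↦ (⟪x, a⟫, ⟪x, b⟫)` is the planar set
`frSet (pm a b '' D) lam t`; three lower bounds for its area.
-/

open MeasureTheory Set

namespace Vale.Agent.Lib.P237.H1

open Vale.Agent.Lib.P237

/-- The planar shift of the top face in the coordinates of the pair `a`, `b`. -/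
def topShift (a b : E3) (c : ℝ × ℝ) (h : ℝ) : ℝ × ℝ :=
  (a 0 * c.1 + a 1 * c.2 + a 2 * h, b 0 * c.1 + b 1 * c.2 + b 2 * h)

theorem proj_frustum (D : Set (ℝ × ℝ)) (lam : ℝ) (c : ℝ × ℝ) (h : ℝ) (a b : E3) :
    (fun x : E3 => ((inner ℝ x a : ℝ), (inner ℝ x b : ℝ))) '' frustum D lam c h
      = frSet (pm a b '' D) lam (topShift a b c h) := by
  ext y
  constructor
  · rintro ⟨x, ⟨d, hd, r, hr0, hr1, hx0, hx1, hx2⟩, rfl⟩
    refine ⟨pm a b d, ⟨d, hd, rfl⟩, r, hr0, hr1, ?_⟩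
    ext
    · simp only [inner3, pm, topShift, hx0, hx1, hx2, Prod.fst_add, Prod.smul_fst, smul_eq_mul]
      ring
    · simp only [inner3, pm, topShift, hx0, hx1, hx2, Prod.snd_add, Prod.smul_snd, smul_eq_mul]
      ring
  · rintro ⟨_, ⟨d, hd, rfl⟩, r, hr0, hr1, rfl⟩
    refine ⟨!₂[(1 - r) * d.1 + r * (lam * d.1 + c.1), (1 - r) * d.2 + r * (lam * d.2 + c.2),
      r * h], ⟨d, hd, r, hr0, hr1, ?_, ?_, ?_⟩, ?_⟩
    · simp
    · simp
    · simp
    · ext
      · simp only [inner3, pm, topShift, Prod.fst_add, Prod.smul_fst, smul_eq_mul]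
        simp
        ring
      · simp only [inner3, pm, topShift, Prod.snd_add, Prod.smul_snd, smul_eq_mul]
        simp
        ring

theorem frSet_compact {E : Set (ℝ × ℝ)} (hE : IsCompact E) (lam : ℝ) (t : ℝ × ℝ) :
    IsCompact (frSet E lam t) := by
  have e : frSet E lam t = (fun z : ℝ × (ℝ × ℝ) => (1 - z.1) • z.2 + z.1 • (lam • z.2 + t)) ''
      (Icc (0 : ℝ) 1 ×ˢ E) := by
    ext y
    constructor
    · rintro ⟨e, he, r, hr0, hr1, rfl⟩
      exact ⟨(r, e), ⟨⟨hr0, hr1⟩, he⟩, rfl⟩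
    · rintro ⟨⟨r, e⟩, ⟨⟨hr0, hr1⟩, he⟩, rfl⟩
      exact ⟨e, he, r, hr0, hr1, rfl⟩
  rw [e]
  exact (isCompact_Icc.prod hE).image (by fun_prop)

theorem subset_frSet (E : Set (ℝ × ℝ)) (lam : ℝ) (t : ℝ × ℝ) : E ⊆ frSet E lam t := by
  intro e he
  refine ⟨e, he, 0, le_rfl, zero_le_one, ?_⟩
  simp

theorem chordFn_swap (e₁ e₂ x : ℝ × ℝ) : chordFn e₂ e₁ x = -chordFn e₁ e₂ x := by
  unfold chordFn
  ring

theorem chordFn_pm (a b : E3) (p q d : ℝ × ℝ) :
    chordFn (pm a b p) (pm a b q) (pm a b d) = (a 0 * b 1 - a 1 * b 0) * chordFn p q d := by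
  unfold chordFn pm
  ring

/-- The quantity `δ` of a chord `p`, `q` of `D` in the coordinates of the pair `a`, `b`. -/
theorem delta_eq (a b : E3) (p q c : ℝ × ℝ) (lam h : ℝ) :
    chordFn (pm a b p) (pm a b q) (lam • pm a b p + topShift a b c h)
      = (a 0 * b 1 - a 1 * b 0) * chordFn p q (lam • p + c)
        + h * ((a 0 * (q.1 - p.1) + a 1 * (q.2 - p.2)) * b 2
          - (b 0 * (q.1 - p.1) + b 1 * (q.2 - p.2)) * a 2) := by
  simp only [chordFn, pm, topShift, Prod.fst_add, Prod.snd_add, Prod.smul_fst, Prod.smul_snd,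
    smul_eq_mul]
  ring

theorem delta_swap (a b : E3) (p q c : ℝ × ℝ) (lam h : ℝ) :
    chordFn (pm a b q) (pm a b p) (lam • pm a b q + topShift a b c h)
      = -chordFn (pm a b p) (pm a b q) (lam • pm a b p + topShift a b c h) := by
  simp only [chordFn, pm, topShift, Prod.fst_add, Prod.snd_add, Prod.smul_fst, Prod.smul_snd,
    smul_eq_mul]
  ring

/-- `projArea` of the frustum is the area of the planar shadow. -/
theorem projArea_frustum (D : Set (ℝ × ℝ)) (lam : ℝ) (c : ℝ × ℝ) (h : ℝ) (a b : E3) :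
    projArea (frustum D lam c h) a b
      = (volume (frSet (pm a b '' D) lam (topShift a b c h))).toReal := by
  unfold projArea
  rw [proj_frustum]

theorem pm_compact {D : Set (ℝ × ℝ)} (hDc : IsCompact D) (a b : E3) :
    IsCompact (pm a b '' D) := by
  have hTc : Continuous (pm a b) := by
    unfold pm
    fun_prop
  exact hDc.image hTc

theorem pm_convex {D : Set (ℝ × ℝ)} (hDv : Convex ℝ D) (a b : E3) :
    Convex ℝ (pm a b '' D) := by
  have e : pm a b = ⇑(matMap (a 0) (a 1) (b 0) (b 1)) := by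
    funext p
    rw [matMap_apply]
    rfl
  rw [e]
  exact hDv.linear_image _

theorem vol_pm (a b : E3) (X : Set (ℝ × ℝ)) :
    volume (pm a b '' X) = ENNReal.ofReal |a 0 * b 1 - a 1 * b 0| * volume X :=
  vol_image_mat (a 0) (a 1) (b 0) (b 1) X

/-- Bound (i): the shadow contains the image of the bottom face. -/
theorem proj_ge_base (D : Set (ℝ × ℝ)) (hDc : IsCompact D) (lam : ℝ) (c : ℝ × ℝ) (h : ℝ)
    (a b : E3) :
    |a 0 * b 1 - a 1 * b 0| * (volume D).toReal ≤ projArea (frustum D lam c h) a b := by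
  rw [projArea_frustum]
  have hfin : volume (frSet (pm a b '' D) lam (topShift a b c h)) ≠ ⊤ :=
    (frSet_compact (pm_compact hDc a b) lam _).measure_lt_top.ne
  have h1 := ENNReal.toReal_mono hfin
    (measure_mono (subset_frSet (pm a b '' D) lam (topShift a b c h)))
  rw [vol_pm, ENNReal.toReal_mul, ENNReal.toReal_ofReal (abs_nonneg _)] at h1
  exact h1

/-- Area of the part of `D` strictly on the negative side of the chord `p`, `q`. -/
noncomputable def negA (D : Set (ℝ × ℝ)) (p q : ℝ × ℝ) : ℝ :=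
  (volume (D ∩ {d | chordFn p q d < 0})).toReal

/-- Area of the part of `D` on the nonnegative side of the chord `p`, `q`. -/
noncomputable def posA (D : Set (ℝ × ℝ)) (p q : ℝ × ℝ) : ℝ :=
  (volume (D ∩ {d | 0 ≤ chordFn p q d})).toReal

theorem negA_nonneg (D : Set (ℝ × ℝ)) (p q : ℝ × ℝ) : 0 ≤ negA D p q := ENNReal.toReal_nonneg

theorem posA_nonneg (D : Set (ℝ × ℝ)) (p q : ℝ × ℝ) : 0 ≤ posA D p q := ENNReal.toReal_nonneg

theorem continuous_chordFn (p q : ℝ × ℝ) : Continuous (chordFn p q) := by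
  unfold chordFn
  fun_prop

theorem negA_add_posA (D : Set (ℝ × ℝ)) (hDc : IsCompact D) (p q : ℝ × ℝ) :
    negA D p q + posA D p q = (volume D).toReal := by
  have hG : MeasurableSet {d : ℝ × ℝ | chordFn p q d < 0} :=
    (isOpen_lt (continuous_chordFn p q) continuous_const).measurableSet
  have h := measure_inter_add_sdiff (μ := volume) D hG
  have e : D \ {d : ℝ × ℝ | chordFn p q d < 0} = D ∩ {d | 0 ≤ chordFn p q d} := by
    ext d
    simp only [mem_sdiff, mem_ofPred_eq, not_lt, mem_inter_iff]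
  rw [e] at h
  have f1 : volume (D ∩ {d | chordFn p q d < 0}) ≠ ⊤ :=
    ne_top_of_le_ne_top hDc.measure_lt_top.ne (measure_mono inter_subset_left)
  have f2 : volume (D ∩ {d | 0 ≤ chordFn p q d}) ≠ ⊤ :=
    ne_top_of_le_ne_top hDc.measure_lt_top.ne (measure_mono inter_subset_left)
  unfold negA posA
  rw [← ENNReal.toReal_add f1 f2, h]

theorem toReal_three (x1 x2 V : ENNReal) (h1 : x1 ≠ ⊤) (h2 : x2 ≠ ⊤) (hV : V ≠ ⊤)
    (J l2 Ld : ℝ) (hJ : 0 ≤ J) (hl2 : 0 ≤ l2) (hLd : 0 ≤ Ld)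
    (h : ENNReal.ofReal J * x1 + ENNReal.ofReal l2 * (ENNReal.ofReal J * x2)
      + ENNReal.ofReal Ld ≤ V) :
    J * x1.toReal + l2 * (J * x2.toReal) + Ld ≤ V.toReal := by
  have t1 : ENNReal.ofReal J * x1 ≠ ⊤ := ENNReal.mul_ne_top ENNReal.ofReal_ne_top h1
  have t2 : ENNReal.ofReal l2 * (ENNReal.ofReal J * x2) ≠ ⊤ :=
    ENNReal.mul_ne_top ENNReal.ofReal_ne_top (ENNReal.mul_ne_top ENNReal.ofReal_ne_top h2)
  have h3 := ENNReal.toReal_mono hV h
  rw [ENNReal.toReal_add (ENNReal.add_ne_top.2 ⟨t1, t2⟩) ENNReal.ofReal_ne_top,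
    ENNReal.toReal_add t1 t2, ENNReal.toReal_mul, ENNReal.toReal_mul, ENNReal.toReal_mul,
    ENNReal.toReal_ofReal hJ, ENNReal.toReal_ofReal hl2, ENNReal.toReal_ofReal hLd] at h3
  exact h3

/-- Bound (A): `J ≥ 0`, `δ > 0`. -/
theorem proj_ge_A (D : Set (ℝ × ℝ)) (hDc : IsCompact D) (hDv : Convex ℝ D) (lam : ℝ)
    (hl0 : 0 ≤ lam) (hl1 : lam ≤ 1) (c : ℝ × ℝ) (h : ℝ) (a b : E3) (p q : ℝ × ℝ) (hp : p ∈ D)
    (hq : q ∈ D) (hJ : 0 ≤ a 0 * b 1 - a 1 * b 0)
    (hδ : 0 < chordFn (pm a b p) (pm a b q) (lam • pm a b p + topShift a b c h)) :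
    (a 0 * b 1 - a 1 * b 0) * negA D p q + lam ^ 2 * ((a 0 * b 1 - a 1 * b 0) * posA D p q)
        + (1 + lam) / 2 * chordFn (pm a b p) (pm a b q) (lam • pm a b p + topShift a b c h)
      ≤ projArea (frustum D lam c h) a b := by
  obtain ⟨J, hJdef⟩ : ∃ J : ℝ, J = a 0 * b 1 - a 1 * b 0 := ⟨_, rfl⟩
  rw [← hJdef] at hJ ⊢
  have key := H77.trap_lower (pm a b '' D) (pm_convex hDv a b) lam hl0 hl1 (topShift a b c h)
    (pm a b p) (pm a b q) ⟨p, hp, rfl⟩ ⟨q, hq, rfl⟩ hδ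
    {e | chordFn (pm a b p) (pm a b q) e < 0} (fun e he => le_of_lt he)
    (fun e _ he => not_lt.1 he)
  have h1 : ENNReal.ofReal J * volume (D ∩ {d | chordFn p q d < 0})
      ≤ volume (pm a b '' D ∩ {e | chordFn (pm a b p) (pm a b q) e < 0}) := by
    rcases hJ.eq_or_lt with h0 | hpos
    · rw [← h0]
      simp
    · have hsub : pm a b '' (D ∩ {d | chordFn p q d < 0})
          ⊆ pm a b '' D ∩ {e | chordFn (pm a b p) (pm a b q) e < 0} := by
        rintro _ ⟨d, ⟨hd, hg⟩, rfl⟩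
        refine ⟨⟨d, hd, rfl⟩, ?_⟩
        show chordFn (pm a b p) (pm a b q) (pm a b d) < 0
        rw [chordFn_pm, ← hJdef]
        exact mul_neg_of_pos_of_neg hpos hg
      have h2 := measure_mono (μ := volume) hsub
      rw [vol_pm, ← hJdef, abs_of_nonneg hJ] at h2
      exact h2
  have h2 : ENNReal.ofReal J * volume (D ∩ {d | 0 ≤ chordFn p q d})
      ≤ volume (pm a b '' D \ {e | chordFn (pm a b p) (pm a b q) e < 0}) := by
    have hsub : pm a b '' (D ∩ {d | 0 ≤ chordFn p q d})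
        ⊆ pm a b '' D \ {e | chordFn (pm a b p) (pm a b q) e < 0} := by
      rintro _ ⟨d, ⟨hd, hg⟩, rfl⟩
      refine ⟨⟨d, hd, rfl⟩, ?_⟩
      show ¬ chordFn (pm a b p) (pm a b q) (pm a b d) < 0
      rw [chordFn_pm, ← hJdef, not_lt]
      exact mul_nonneg hJ hg
    have h3 := measure_mono (μ := volume) hsub
    rw [vol_pm, ← hJdef, abs_of_nonneg hJ] at h3
    exact h3
  have hfin : volume (frSet (pm a b '' D) lam (topShift a b c h)) ≠ ⊤ :=
    (frSet_compact (pm_compact hDc a b) lam _).measure_lt_top.ne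
  have f1 : volume (D ∩ {d | chordFn p q d < 0}) ≠ ⊤ :=
    ne_top_of_le_ne_top hDc.measure_lt_top.ne (measure_mono inter_subset_left)
  have f2 : volume (D ∩ {d | 0 ≤ chordFn p q d}) ≠ ⊤ :=
    ne_top_of_le_ne_top hDc.measure_lt_top.ne (measure_mono inter_subset_left)
  rw [projArea_frustum]
  refine toReal_three _ _ _ f1 f2 hfin J (lam ^ 2) _ hJ (sq_nonneg lam)
    (mul_nonneg (by linarith) hδ.le) ?_
  exact le_trans (add_le_add (add_le_add h1 (by gcongr)) le_rfl) key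

/-- Bound (B): `J ≥ 0`, `δ < 0` (the reversed chord). -/
theorem proj_ge_B (D : Set (ℝ × ℝ)) (hDc : IsCompact D) (hDv : Convex ℝ D) (lam : ℝ)
    (hl0 : 0 ≤ lam) (hl1 : lam ≤ 1) (c : ℝ × ℝ) (h : ℝ) (a b : E3) (p q : ℝ × ℝ) (hp : p ∈ D)
    (hq : q ∈ D) (hJ : 0 ≤ a 0 * b 1 - a 1 * b 0)
    (hδ : chordFn (pm a b p) (pm a b q) (lam • pm a b p + topShift a b c h) < 0) :
    (a 0 * b 1 - a 1 * b 0) * posA D p q + lam ^ 2 * ((a 0 * b 1 - a 1 * b 0) * negA D p q)
        + (1 + lam) / 2 * -chordFn (pm a b p) (pm a b q) (lam • pm a b p + topShift a b c h)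
      ≤ projArea (frustum D lam c h) a b := by
  obtain ⟨J, hJdef⟩ : ∃ J : ℝ, J = a 0 * b 1 - a 1 * b 0 := ⟨_, rfl⟩
  rw [← hJdef] at hJ ⊢
  have hδ' : 0 < chordFn (pm a b q) (pm a b p) (lam • pm a b q + topShift a b c h) := by
    rw [delta_swap]
    linarith
  have key := H77.trap_lower (pm a b '' D) (pm_convex hDv a b) lam hl0 hl1 (topShift a b c h)
    (pm a b q) (pm a b p) ⟨q, hq, rfl⟩ ⟨p, hp, rfl⟩ hδ'
    {e | chordFn (pm a b q) (pm a b p) e ≤ 0} (fun e he => he)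
    (fun e _ he => le_of_lt (not_le.1 he))
  rw [delta_swap] at key
  have h1 : ENNReal.ofReal J * volume (D ∩ {d | 0 ≤ chordFn p q d})
      ≤ volume (pm a b '' D ∩ {e | chordFn (pm a b q) (pm a b p) e ≤ 0}) := by
    have hsub : pm a b '' (D ∩ {d | 0 ≤ chordFn p q d})
        ⊆ pm a b '' D ∩ {e | chordFn (pm a b q) (pm a b p) e ≤ 0} := by
      rintro _ ⟨d, ⟨hd, hg⟩, rfl⟩
      refine ⟨⟨d, hd, rfl⟩, ?_⟩
      show chordFn (pm a b q) (pm a b p) (pm a b d) ≤ 0
      rw [chordFn_swap, chordFn_pm, ← hJdef]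
      have := mul_nonneg hJ hg
      linarith
    have h3 := measure_mono (μ := volume) hsub
    rw [vol_pm, ← hJdef, abs_of_nonneg hJ] at h3
    exact h3
  have h2 : ENNReal.ofReal J * volume (D ∩ {d | chordFn p q d < 0})
      ≤ volume (pm a b '' D \ {e | chordFn (pm a b q) (pm a b p) e ≤ 0}) := by
    rcases hJ.eq_or_lt with h0 | hpos
    · rw [← h0]
      simp
    · have hsub : pm a b '' (D ∩ {d | chordFn p q d < 0})
          ⊆ pm a b '' D \ {e | chordFn (pm a b q) (pm a b p) e ≤ 0} := by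
        rintro _ ⟨d, ⟨hd, hg⟩, rfl⟩
        refine ⟨⟨d, hd, rfl⟩, ?_⟩
        show ¬ chordFn (pm a b q) (pm a b p) (pm a b d) ≤ 0
        rw [chordFn_swap, chordFn_pm, ← hJdef, not_le]
        have := mul_neg_of_pos_of_neg hpos hg
        linarith
      have h3 := measure_mono (μ := volume) hsub
      rw [vol_pm, ← hJdef, abs_of_nonneg hJ] at h3
      exact h3
  have hfin : volume (frSet (pm a b '' D) lam (topShift a b c h)) ≠ ⊤ :=
    (frSet_compact (pm_compact hDc a b) lam _).measure_lt_top.ne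
  have f1 : volume (D ∩ {d | chordFn p q d < 0}) ≠ ⊤ :=
    ne_top_of_le_ne_top hDc.measure_lt_top.ne (measure_mono inter_subset_left)
  have f2 : volume (D ∩ {d | 0 ≤ chordFn p q d}) ≠ ⊤ :=
    ne_top_of_le_ne_top hDc.measure_lt_top.ne (measure_mono inter_subset_left)
  rw [projArea_frustum]
  refine toReal_three _ _ _ f2 f1 hfin J (lam ^ 2) _ hJ (sq_nonneg lam)
    (mul_nonneg (by linarith) (by linarith)) ?_
  exact le_trans (add_le_add (add_le_add h1 (by gcongr)) le_rfl) key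

end Vale.Agent.Lib.P237.H1
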