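import Mathlib
import Vale.Agent.Lib.P237.helper1.FrDefs
import Vale.Agent.Lib.P237.helper1.FrProj
import Vale.Agent.Lib.P237.helper98.Prism

/-!
# P237 (helper1): the projection body of a frustum contains long vertical fibres
-/

open MeasureTheory Set

namespace Vale.Agent.Lib.P237.H1

open Vale.Agent.Lib.P237

/-- An orthonormal triple in coordinates: `u` is plus or minus the cross product of `a`, `b`
(signed form of helper98's `triple_alg`). -/
theorem triple_sgn (a0 a1 a2 b0 b1 b2 u0 u1 u2 : ℝ) (ha : a0 ^ 2 + a1 ^ 2 + a2 ^ 2 = 1)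
    (hb : b0 ^ 2 + b1 ^ 2 + b2 ^ 2 = 1) (hab : a0 * b0 + a1 * b1 + a2 * b2 = 0)
    (hu : u0 ^ 2 + u1 ^ 2 + u2 ^ 2 = 1) (hua : u0 * a0 + u1 * a1 + u2 * a2 = 0)
    (hub : u0 * b0 + u1 * b1 + u2 * b2 = 0) :
    ∃ s : ℝ, (s = 1 ∨ s = -1) ∧ u0 = s * (a1 * b2 - a2 * b1) ∧ u1 = s * (a2 * b0 - a0 * b2) ∧
      u2 = s * (a0 * b1 - a1 * b0) := by
  obtain ⟨c0, hc0⟩ : ∃ c0 : ℝ, c0 = a1 * b2 - a2 * b1 := ⟨_, rfl⟩
  obtain ⟨c1, hc1⟩ : ∃ c1 : ℝ, c1 = a2 * b0 - a0 * b2 := ⟨_, rfl⟩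
  obtain ⟨c2, hc2⟩ : ∃ c2 : ℝ, c2 = a0 * b1 - a1 * b0 := ⟨_, rfl⟩
  have x0 : u1 * c2 - u2 * c1 = 0 := by
    rw [hc1, hc2]; linear_combination a0 * hub - b0 * hua
  have x1 : u2 * c0 - u0 * c2 = 0 := by
    rw [hc0, hc2]; linear_combination a1 * hub - b1 * hua
  have x2 : u0 * c1 - u1 * c0 = 0 := by
    rw [hc0, hc1]; linear_combination a2 * hub - b2 * hua
  have hc : c0 ^ 2 + c1 ^ 2 + c2 ^ 2 = 1 := by
    rw [hc0, hc1, hc2]
    linear_combination (b0 ^ 2 + b1 ^ 2 + b2 ^ 2) * ha + hb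
      - (a0 * b0 + a1 * b1 + a2 * b2) * hab
  obtain ⟨s, hs⟩ : ∃ s : ℝ, s = u0 * c0 + u1 * c1 + u2 * c2 := ⟨_, rfl⟩
  have hs2 : s ^ 2 = 1 := by
    rw [hs]
    linear_combination (c0 ^ 2 + c1 ^ 2 + c2 ^ 2) * hu + hc - (u1 * c2 - u2 * c1) * x0
      - (u2 * c0 - u0 * c2) * x1 - (u0 * c1 - u1 * c0) * x2
  have e0 : u0 = s * c0 := by
    rw [hs]; linear_combination (-u0) * hc + c1 * x2 - c2 * x1
  have e1 : u1 = s * c1 := by
    rw [hs]; linear_combination (-u1) * hc + c2 * x0 - c0 * x2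
  have e2 : u2 = s * c2 := by
    rw [hs]; linear_combination (-u2) * hc + c0 * x1 - c1 * x0
  have hsor : s = 1 ∨ s = -1 := by
    have h : (s - 1) * (s + 1) = 0 := by linear_combination hs2
    rcases mul_eq_zero.1 h with h | h
    · left; linarith
    · right; linarith
  refine ⟨s, hsor, ?_, ?_, ?_⟩
  · rw [e0, hc0]
  · rw [e1, hc1]
  · rw [e2, hc2]

/-- Exchanging the two coordinate vectors does not change the projection area. -/
theorem projArea_swap (K : Set E3) (a b : E3) : projArea K b a = projArea K a b := by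
  unfold projArea
  congr 1
  have e : (fun x : E3 => ((inner ℝ x b : ℝ), (inner ℝ x a : ℝ))) '' K
      = (MeasurableEquiv.prodComm : ℝ × ℝ ≃ᵐ ℝ × ℝ) ⁻¹'
        ((fun x : E3 => ((inner ℝ x a : ℝ), (inner ℝ x b : ℝ))) '' K) := by
    ext y
    constructor
    · rintro ⟨x, hx, rfl⟩
      exact ⟨x, hx, rfl⟩
    · rintro ⟨x, hx, hxy⟩
      refine ⟨x, hx, ?_⟩
      have h1 : (inner ℝ x a : ℝ) = y.2 := congrArg Prod.fst hxy
      have h2 : (inner ℝ x b : ℝ) = y.1 := congrArg Prod.snd hxy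
      exact Prod.ext h2 h1
  have hmp : MeasurePreserving (MeasurableEquiv.prodComm : ℝ × ℝ ≃ᵐ ℝ × ℝ) volume volume := by
    rw [Measure.volume_eq_prod]
    exact Measure.measurePreserving_swap
  rw [e]
  exact hmp.measure_preimage_equiv _

theorem core_real (J s L dl N P lam A : ℝ) (hJ : 0 ≤ J) (hN0 : 0 ≤ N) (hP0 : 0 ≤ P)
    (hl0 : 0 ≤ lam) (hl1 : lam ≤ 1) (hL : 0 < L) (hs1 : -(N + lam ^ 2 * P) ≤ s)
    (hs2 : s ≤ P + lam ^ 2 * N) (hbase : J * (N + P) ≤ A)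
    (hA : 0 < dl → J * N + lam ^ 2 * (J * P) + L * dl ≤ A)
    (hB : dl < 0 → J * P + lam ^ 2 * (J * N) + L * -dl ≤ A) : |J * s - L * dl| ≤ A := by
  have hl2 : lam ^ 2 ≤ 1 := by nlinarith
  have hJN : 0 ≤ J * N := mul_nonneg hJ hN0
  have hJP : 0 ≤ J * P := mul_nonneg hJ hP0
  have k1 : lam ^ 2 * (J * N) ≤ J * N := by nlinarith
  have k2 : lam ^ 2 * (J * P) ≤ J * P := by nlinarith
  have k3 : J * s ≤ J * P + lam ^ 2 * (J * N) := by
    have := mul_le_mul_of_nonneg_left hs2 hJ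
    have e : J * (P + lam ^ 2 * N) = J * P + lam ^ 2 * (J * N) := by ring
    linarith
  have k4 : -(J * N + lam ^ 2 * (J * P)) ≤ J * s := by
    have := mul_le_mul_of_nonneg_left hs1 hJ
    have e : J * -(N + lam ^ 2 * P) = -(J * N + lam ^ 2 * (J * P)) := by ring
    linarith
  have hbase' : J * N + J * P ≤ A := by
    have e : J * (N + P) = J * N + J * P := by ring
    linarith
  rw [abs_le]
  rcases lt_trichotomy dl 0 with hd | hd | hd
  · have hB' := hB hd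
    have : L * dl < 0 := mul_neg_of_pos_of_neg hL hd
    constructor <;> linarith
  · rw [hd, mul_zero, sub_zero]
    constructor <;> linarith
  · have hA' := hA hd
    have : 0 < L * dl := mul_pos hL hd
    constructor <;> linarith

/-- The core inequality for a pair with `J ≥ 0`. -/
theorem core_abs (D : Set (ℝ × ℝ)) (hDc : IsCompact D) (hDv : Convex ℝ D) (lam : ℝ)
    (hl0 : 0 ≤ lam) (hl1 : lam ≤ 1) (c : ℝ × ℝ) (h : ℝ) (a b : E3) (p q : ℝ × ℝ) (hp : p ∈ D)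
    (hq : q ∈ D) (s : ℝ) (hs1 : -(negA D p q + lam ^ 2 * posA D p q) ≤ s)
    (hs2 : s ≤ posA D p q + lam ^ 2 * negA D p q) (hJ : 0 ≤ a 0 * b 1 - a 1 * b 0) :
    |(a 0 * b 1 - a 1 * b 0) * s
        - (1 + lam) / 2 * chordFn (pm a b p) (pm a b q) (lam • pm a b p + topShift a b c h)|
      ≤ projArea (frustum D lam c h) a b := by
  have hbase := proj_ge_base D hDc lam c h a b
  rw [abs_of_nonneg hJ, ← negA_add_posA D hDc p q] at hbase
  exact core_real _ s _ _ (negA D p q) (posA D p q) lam _ hJ (negA_nonneg D p q)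
    (posA_nonneg D p q) hl0 hl1 (by linarith) hs1 hs2 hbase
    (proj_ge_A D hDc hDv lam hl0 hl1 c h a b p q hp hq hJ)
    (proj_ge_B D hDc hDv lam hl0 hl1 c h a b p q hp hq hJ)

/-- The explicit points of the projection body of a frustum. -/
theorem fr_mem (D : Set (ℝ × ℝ)) (hDc : IsCompact D) (hDv : Convex ℝ D) (lam : ℝ)
    (hl0 : 0 ≤ lam) (hl1 : lam ≤ 1) (c : ℝ × ℝ) (h : ℝ) (p q : ℝ × ℝ) (hp : p ∈ D) (hq : q ∈ D)
    (s : ℝ) (hs1 : -(negA D p q + lam ^ 2 * posA D p q) ≤ s)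
    (hs2 : s ≤ posA D p q + lam ^ 2 * negA D p q) (x : E3)
    (hx0 : x 0 = -((1 + lam) / 2 * h * (q.2 - p.2)))
    (hx1 : x 1 = (1 + lam) / 2 * h * (q.1 - p.1))
    (hx2 : x 2 = s - (1 + lam) / 2 * chordFn p q (lam • p + c)) :
    x ∈ projBody (frustum D lam c h) := by
  intro a b u ha hb hab hu hua hub
  have ha' := norm3 a ha
  have hb' := norm3 b hb
  have hu' := norm3 u hu
  have hab' : a 0 * b 0 + a 1 * b 1 + a 2 * b 2 = 0 := by
    rw [← inner3]; exact hab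
  have hua' : u 0 * a 0 + u 1 * a 1 + u 2 * a 2 = 0 := by
    rw [← inner3]; exact hua
  have hub' : u 0 * b 0 + u 1 * b 1 + u 2 * b 2 = 0 := by
    rw [← inner3]; exact hub
  obtain ⟨s', hs', e0, e1, e2⟩ := triple_sgn (a 0) (a 1) (a 2) (b 0) (b 1) (b 2) (u 0) (u 1)
    (u 2) ha' hb' hab' hu' hua' hub'
  have key : inner ℝ x u = s' * ((a 0 * b 1 - a 1 * b 0) * s
      - (1 + lam) / 2 * chordFn (pm a b p) (pm a b q) (lam • pm a b p + topShift a b c h)) := by
    rw [inner3, hx0, hx1, hx2, e0, e1, e2, delta_eq]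
    ring
  have hX : |(a 0 * b 1 - a 1 * b 0) * s
      - (1 + lam) / 2 * chordFn (pm a b p) (pm a b q) (lam • pm a b p + topShift a b c h)|
      ≤ projArea (frustum D lam c h) a b := by
    by_cases hJ : 0 ≤ a 0 * b 1 - a 1 * b 0
    · exact core_abs D hDc hDv lam hl0 hl1 c h a b p q hp hq s hs1 hs2 hJ
    · have hJ' : 0 ≤ b 0 * a 1 - b 1 * a 0 := by linarith [not_le.1 hJ]
      have h1 := core_abs D hDc hDv lam hl0 hl1 c h b a p q hp hq s hs1 hs2 hJ'
      rw [projArea_swap] at h1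
      have e : (b 0 * a 1 - b 1 * a 0) * s
          - (1 + lam) / 2 * chordFn (pm b a p) (pm b a q) (lam • pm b a p + topShift b a c h)
          = -((a 0 * b 1 - a 1 * b 0) * s
          - (1 + lam) / 2
            * chordFn (pm a b p) (pm a b q) (lam • pm a b p + topShift a b c h)) := by
        rw [delta_eq, delta_eq]
        ring
      rw [e, abs_neg] at h1
      exact h1
  rw [key]
  rcases hs' with h1 | h1
  · rw [h1, one_mul]
    exact le_trans (le_abs_self _) hX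
  · rw [h1, neg_one_mul]
    exact le_trans (neg_le_abs _) hX

/-- The coordinate form of the projection body (for Tonelli). -/
def bodyT (K : Set E3) : Set (ℝ × (ℝ × ℝ)) :=
  {y | ∀ a b u : E3, ‖a‖ = 1 → ‖b‖ = 1 → inner ℝ a b = (0 : ℝ) → ‖u‖ = 1 →
    inner ℝ u a = (0 : ℝ) → inner ℝ u b = (0 : ℝ) →
    y.2.1 * u 0 + y.2.2 * u 1 + y.1 * u 2 ≤ projArea K a b}

theorem projBody_eq (K : Set E3) : projBody K = chart ⁻¹' bodyT K := by
  ext x
  show (∀ a b u : E3, ‖a‖ = 1 → ‖b‖ = 1 → inner ℝ a b = (0 : ℝ) → ‖u‖ = 1 →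
      inner ℝ u a = (0 : ℝ) → inner ℝ u b = (0 : ℝ) → inner ℝ x u ≤ projArea K a b) ↔
    (∀ a b u : E3, ‖a‖ = 1 → ‖b‖ = 1 → inner ℝ a b = (0 : ℝ) → ‖u‖ = 1 →
      inner ℝ u a = (0 : ℝ) → inner ℝ u b = (0 : ℝ) →
      x 0 * u 0 + x 1 * u 1 + x 2 * u 2 ≤ projArea K a b)
  refine forall_congr' fun a => forall_congr' fun b => forall_congr' fun u => ?_
  rw [inner3 x u]

theorem bodyT_closed (K : Set E3) : IsClosed (bodyT K) := by
  have e : bodyT K = ⋂ (a : E3) (b : E3) (u : E3) (_ : ‖a‖ = 1) (_ : ‖b‖ = 1)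
      (_ : inner ℝ a b = (0 : ℝ)) (_ : ‖u‖ = 1) (_ : inner ℝ u a = (0 : ℝ))
      (_ : inner ℝ u b = (0 : ℝ)),
      {y : ℝ × (ℝ × ℝ) | y.2.1 * u 0 + y.2.2 * u 1 + y.1 * u 2 ≤ projArea K a b} := by
    ext y
    simp only [bodyT, mem_ofPred_eq, mem_iInter]
  rw [e]
  refine isClosed_iInter fun a => isClosed_iInter fun b => isClosed_iInter fun u =>
    isClosed_iInter fun _ => isClosed_iInter fun _ => isClosed_iInter fun _ =>
    isClosed_iInter fun _ => isClosed_iInter fun _ => isClosed_iInter fun _ => ?_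
  exact isClosed_le (by fun_prop) continuous_const

/-- Tonelli: the projection body of a frustum has volume at least
`(1 + lam^2) |D|` times the area of `L h R (D - D)`. -/
theorem vol_projBody_ge (D : Set (ℝ × ℝ)) (hDc : IsCompact D) (hDv : Convex ℝ D) (lam : ℝ)
    (hl0 : 0 ≤ lam) (hl1 : lam ≤ 1) (c : ℝ × ℝ) (h : ℝ) :
    ENNReal.ofReal ((1 + lam ^ 2) * (volume D).toReal) * volume (wSet D ((1 + lam) / 2 * h))
      ≤ volume (projBody (frustum D lam c h)) := by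
  have hT := (bodyT_closed (frustum D lam c h)).measurableSet
  have hvolT : volume (bodyT (frustum D lam c h))
      = ∫⁻ w : ℝ × ℝ, volume ((fun z : ℝ => (z, w)) ⁻¹' bodyT (frustum D lam c h)) := by
    have e : (volume : Measure (ℝ × (ℝ × ℝ)))
        = (volume : Measure ℝ).prod (volume : Measure (ℝ × ℝ)) := rfl
    rw [e]
    exact Measure.prod_apply_symm hT
  rw [projBody_eq, chart_mp.measure_preimage hT.nullMeasurableSet, hvolT]
  have hZ := (wSet_compact D hDc ((1 + lam) / 2 * h)).measurableSet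
  refine le_trans ?_ (setLIntegral_le_lintegral (wSet D ((1 + lam) / 2 * h)) _)
  rw [← setLIntegral_const]
  refine setLIntegral_mono' hZ ?_
  rintro w ⟨p, hp, q, hq, rfl⟩
  -- the chord is (q, p)
  obtain ⟨lo, hlo⟩ : ∃ lo : ℝ, lo = -(negA D q p + lam ^ 2 * posA D q p)
      - (1 + lam) / 2 * chordFn q p (lam • q + c) := ⟨_, rfl⟩
  obtain ⟨hi, hhi⟩ : ∃ hi : ℝ, hi = (posA D q p + lam ^ 2 * negA D q p)
      - (1 + lam) / 2 * chordFn q p (lam • q + c) := ⟨_, rfl⟩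
  have hsub : Icc lo hi ⊆ (fun z : ℝ => (z, (-((1 + lam) / 2 * h * (p.2 - q.2)),
      (1 + lam) / 2 * h * (p.1 - q.1)))) ⁻¹' bodyT (frustum D lam c h) := by
    intro z hz
    have hmem : (!₂[-((1 + lam) / 2 * h * (p.2 - q.2)), (1 + lam) / 2 * h * (p.1 - q.1), z] : E3)
        ∈ projBody (frustum D lam c h) := by
      refine fr_mem D hDc hDv lam hl0 hl1 c h q p hq hp
        (z + (1 + lam) / 2 * chordFn q p (lam • q + c)) ?_ ?_ _ ?_ ?_ ?_
      · have := hz.1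
        rw [hlo] at this
        linarith
      · have := hz.2
        rw [hhi] at this
        linarith
      · simp
      · simp
      · simp
    intro a b u ha hb hab hu hua hub
    have h1 := hmem a b u ha hb hab hu hua hub
    rw [inner3] at h1
    simpa using h1
  have hvol : volume (Icc lo hi) = ENNReal.ofReal ((1 + lam ^ 2) * (volume D).toReal) := by
    rw [Real.volume_Icc, hlo, hhi, ← negA_add_posA D hDc q p]
    congr 1
    ring
  rw [← hvol]
  exact measure_mono hsub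

end Vale.Agent.Lib.P237.H1
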