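import Mathlib
import Vale.Agent.Lib.P237.helper1.FrDefs
import Vale.Agent.Lib.P237.helper1.FrBody
import Vale.Agent.Lib.P237.helper17.FrVol
import Vale.Agent.Lib.P237.helper98.Prism

/-!
# P237 (helper1): Petty's inequality for frusta, constant `8`
-/

open MeasureTheory Set

namespace Vale.Agent.Lib.P237.H1

open Vale.Agent.Lib.P237

theorem fr_poly (lam : ℝ) (hl0 : 0 ≤ lam) :
    8 * (1 + lam + lam ^ 2) ^ 2 ≤ 9 * (1 + lam ^ 2) * (1 + lam) ^ 2 := by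
  have h1 : 0 ≤ (1 - lam) ^ 2 * (lam ^ 2 + 4 * lam + 1) :=
    mul_nonneg (sq_nonneg _) (by positivity)
  have e : 9 * (1 + lam ^ 2) * (1 + lam) ^ 2 - 8 * (1 + lam + lam ^ 2) ^ 2
      = (1 - lam) ^ 2 * (lam ^ 2 + 4 * lam + 1) := by ring
  linarith

/-- Petty's inequality for frusta with the prism constant `8`. -/
theorem frustum_petty (D : Set (ℝ × ℝ)) (hDc : IsCompact D) (hDv : Convex ℝ D) (lam : ℝ)
    (hl0 : 0 ≤ lam) (hl1 : lam ≤ 1) (c : ℝ × ℝ) (h : ℝ) (hh : 0 ≤ h) :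
    8 * volume (frustum D lam c h) ^ 2 ≤ volume (projBody (frustum D lam c h)) := by
  have hv := H17.vol_frustum_le D hDc lam hl0 hl1 c h hh
  have hp := vol_projBody_ge D hDc hDv lam hl0 hl1 c h
  have hbm := wSet_bm D hDc ((1 + lam) / 2 * h)
  have hW := wSet_compact D hDc ((1 + lam) / 2 * h)
  obtain ⟨v, hvdef⟩ : ∃ v : ℝ, v = (volume D).toReal := ⟨_, rfl⟩
  obtain ⟨w, hwdef⟩ : ∃ w : ℝ, w = (volume (wSet D ((1 + lam) / 2 * h))).toReal := ⟨_, rfl⟩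
  have hDv' : volume D = ENNReal.ofReal v := by
    rw [hvdef]
    exact (ENNReal.ofReal_toReal hDc.measure_lt_top.ne).symm
  have hWv : volume (wSet D ((1 + lam) / 2 * h)) = ENNReal.ofReal w := by
    rw [hwdef]
    exact (ENNReal.ofReal_toReal hW.measure_lt_top.ne).symm
  have hv0 : 0 ≤ v := by
    rw [hvdef]
    exact ENNReal.toReal_nonneg
  have hw0 : 0 ≤ w := by
    rw [hwdef]
    exact ENNReal.toReal_nonneg
  rw [← hvdef, hWv] at hp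
  rw [hDv'] at hv
  rw [hDv', hWv, ← ENNReal.ofReal_mul (sq_nonneg _),
    ← ENNReal.ofReal_mul (by norm_num : (0 : ℝ) ≤ 1 / 4)] at hbm
  have hbm' : ((1 + lam) / 2 * h) ^ 2 * v ≤ 1 / 4 * w :=
    (ENNReal.ofReal_le_ofReal_iff (by positivity)).1 hbm
  have hw : (1 + lam) ^ 2 * h ^ 2 * v ≤ w := by
    have e : ((1 + lam) / 2 * h) ^ 2 * v = (1 + lam) ^ 2 * h ^ 2 * v / 4 := by ring
    linarith
  obtain ⟨k, hk⟩ : ∃ k : ℝ, k = h * (1 + lam + lam ^ 2) / 3 * v := ⟨_, rfl⟩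
  have hk0 : 0 ≤ k := by
    rw [hk]
    positivity
  rw [← ENNReal.ofReal_mul (by positivity), ← hk] at hv
  have s1 : 8 * k ^ 2 ≤ (1 + lam ^ 2) * (1 + lam) ^ 2 * h ^ 2 * v ^ 2 := by
    have h1 := mul_le_mul_of_nonneg_right (fr_poly lam hl0)
      (by positivity : 0 ≤ h ^ 2 * v ^ 2 / 9)
    have e1 : 8 * k ^ 2 = 8 * (1 + lam + lam ^ 2) ^ 2 * (h ^ 2 * v ^ 2 / 9) := by
      rw [hk]; ring
    have e2 : (1 + lam ^ 2) * (1 + lam) ^ 2 * h ^ 2 * v ^ 2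
        = 9 * (1 + lam ^ 2) * (1 + lam) ^ 2 * (h ^ 2 * v ^ 2 / 9) := by ring
    linarith
  have s2 : (1 + lam ^ 2) * (1 + lam) ^ 2 * h ^ 2 * v ^ 2 ≤ (1 + lam ^ 2) * v * w := by
    have h1 := mul_le_mul_of_nonneg_left hw (by positivity : 0 ≤ (1 + lam ^ 2) * v)
    have e1 : (1 + lam ^ 2) * v * ((1 + lam) ^ 2 * h ^ 2 * v)
        = (1 + lam ^ 2) * (1 + lam) ^ 2 * h ^ 2 * v ^ 2 := by ring
    linarith
  have e8 : (8 : ENNReal) = ENNReal.ofReal 8 := by simp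
  calc 8 * volume (frustum D lam c h) ^ 2
      ≤ 8 * ENNReal.ofReal k ^ 2 := by gcongr
    _ = ENNReal.ofReal (8 * k ^ 2) := by
        rw [e8, ← ENNReal.ofReal_pow hk0, ← ENNReal.ofReal_mul (by norm_num)]
    _ ≤ ENNReal.ofReal ((1 + lam ^ 2) * v * w) := ENNReal.ofReal_le_ofReal (by linarith)
    _ = ENNReal.ofReal ((1 + lam ^ 2) * v) * ENNReal.ofReal w :=
        ENNReal.ofReal_mul (by positivity)
    _ ≤ volume (projBody (frustum D lam c h)) := hp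

end Vale.Agent.Lib.P237.H1
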